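import Vale.Agent.P174.Ext.Defs

/-!
P174, towers: paths in labelled graphs and their lifts to infinite cyclic covers.
-/

namespace Vale.Agent.P174.Tower

universe u v w

variable {E : Type u} {V : Type v}

/-- The start of a signed edge. -/
def sgnSrc (src tgt : E → V) (x : E × Bool) : V := if x.2 then src x.1 else tgt x.1

/-- The end of a signed edge. -/
def sgnTgt (src tgt : E → V) (x : E × Bool) : V := if x.2 then tgt x.1 else src x.1

/-- `l` is a path from `a` to `b`. -/
def IsPath (src tgt : E → V) : V → List (E × Bool) → V → Prop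
  | a, [], b => a = b
  | a, x :: l, b => a = sgnSrc src tgt x ∧ IsPath src tgt (sgnTgt src tgt x) l b

/-- The change of level along a signed edge. -/
def step (φ : E → ℤ) (x : E × Bool) : ℤ := if x.2 then φ x.1 else -φ x.1

/-- The change of level along a path. -/
def height (φ : E → ℤ) (l : List (E × Bool)) : ℤ := (l.map (step φ)).sum

/-- The lift of a word starting at level `t`. -/
def liftL (φ : E → ℤ) : ℤ → List (E × Bool) → List ((E × ℤ) × Bool)
  | _, [] => []
  | t, x :: l => ((x.1, if x.2 then t else t - φ x.1), x.2) :: liftL φ (t + step φ x) l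

variable (φ : E → ℤ) (src tgt : E → V)

@[simp] theorem height_cons (x : E × Bool) (l : List (E × Bool)) :
    height φ (x :: l) = step φ x + height φ l := by simp [height]

theorem isPath_liftL {a b : V} {l : List (E × Bool)} (h : IsPath src tgt a l b) (t : ℤ) :
    IsPath (fun e : E × ℤ => (src e.1, e.2)) (fun e => (tgt e.1, e.2 + φ e.1))
      (a, t) (liftL φ t l) (b, t + height φ l) := by
  induction l generalizing a t with
  | nil =>
    have : a = b := h
    simp [IsPath, liftL, height, this]
  | cons x l ih =>
    obtain ⟨e, s⟩ := x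
    obtain ⟨h1, h2⟩ := h
    have key := ih h2 (t + step φ (e, s))
    simp only [liftL, IsPath, height_cons, ← add_assoc]
    cases s <;> simp_all [sgnSrc, sgnTgt, step, sub_eq_add_neg]

theorem mem_liftL_fst {t : ℤ} {l : List (E × Bool)} {e : E} :
    e ∈ l.map Prod.fst ↔ ∃ p, (e, p) ∈ (liftL φ t l).map Prod.fst := by
  induction l generalizing t with
  | nil => simp [liftL]
  | cons x l ih =>
    simp only [List.map_cons, List.mem_cons, liftL, ih (t := t + step φ x)]
    constructor
    · rintro (rfl | ⟨p, hp⟩)
      · exact ⟨_, Or.inl rfl⟩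
      · exact ⟨p, Or.inr hp⟩
    · rintro ⟨p, hp | hp⟩
      · exact Or.inl (congrArg Prod.fst hp)
      · exact Or.inr ⟨p, hp⟩

theorem length_liftL (t : ℤ) (l : List (E × Bool)) : (liftL φ t l).length = l.length := by
  induction l generalizing t with
  | nil => rfl
  | cons x l ih => simp [liftL, ih]

section Wreath

variable (M : Type w) [Group M]

/-- Translation of functions on the integers. -/
def shiftZ : Multiplicative ℤ →* MulAut (ℤ → M) where
  toFun n :=
    { toFun := fun f p => f (p + Multiplicative.toAdd n)
      invFun := fun f p => f (p - Multiplicative.toAdd n)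
      left_inv := fun f => by funext p; simp
      right_inv := fun f => by funext p; simp
      map_mul' := fun _ _ => rfl }
  map_one' := by ext f p; simp
  map_mul' a b := by ext f p; simp [add_assoc]

/-- The wreath product with the integers. -/
abbrev WrZ := (ℤ → M) ⋊[shiftZ M] Multiplicative ℤ

variable {M}

theorem WrZ.left_mul (a b : WrZ M) (p : ℤ) :
    (a * b).left p = a.left p * b.left (p + Multiplicative.toAdd a.right) := rfl

theorem WrZ.left_inv (a : WrZ M) (p : ℤ) :
    a⁻¹.left p = (a.left (p - Multiplicative.toAdd a.right))⁻¹ := by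
  rw [SemidirectProduct.inv_left, map_inv]
  simp [shiftZ, sub_eq_add_neg]

end Wreath

/-- Lifting as a homomorphism into a wreath product. -/
def liftHom : FreeGroup E →* WrZ (FreeGroup (E × ℤ)) :=
  FreeGroup.lift fun e => ⟨fun p => FreeGroup.of (e, p), Multiplicative.ofAdd (φ e)⟩

theorem liftHom_mk (l : List (E × Bool)) :
    (liftHom φ (FreeGroup.mk l)).right = Multiplicative.ofAdd (height φ l) ∧
      ∀ p, (liftHom φ (FreeGroup.mk l)).left p = FreeGroup.mk (liftL φ p l) := by
  induction l with
  | nil => simp [← FreeGroup.one_eq_mk, height, liftL]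
  | cons x l ih =>
    obtain ⟨e, s⟩ := x
    have hm : FreeGroup.mk ((e, s) :: l) = FreeGroup.mk [(e, s)] * FreeGroup.mk l := by
      rw [FreeGroup.mul_mk]; rfl
    have hof : (liftHom φ) (FreeGroup.of e) =
        (⟨fun p => FreeGroup.of (e, p), Multiplicative.ofAdd (φ e)⟩ : WrZ (FreeGroup (E × ℤ))) :=
      FreeGroup.lift_apply_of
    cases s
    · have h1 : FreeGroup.mk [(e, false)] = (FreeGroup.of e)⁻¹ := rfl
      constructor
      · rw [hm, h1, map_mul, SemidirectProduct.mul_right, map_inv, SemidirectProduct.inv_right,
          hof, ih.1, height_cons, ofAdd_add]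
        rfl
      · intro p
        rw [hm, h1, map_mul, WrZ.left_mul, map_inv, WrZ.left_inv, SemidirectProduct.inv_right,
          hof, ih.2, toAdd_inv, toAdd_ofAdd]
        change FreeGroup.mk [((e, p - φ e), false)] * _ = _
        rw [FreeGroup.mul_mk]
        simp [liftL, step]
    · have h1 : FreeGroup.mk [(e, true)] = FreeGroup.of e := rfl
      constructor
      · rw [hm, h1, map_mul, SemidirectProduct.mul_right, hof, ih.1, height_cons, ofAdd_add]
        rfl
      · intro p
        rw [hm, h1, map_mul, WrZ.left_mul, hof, ih.2, toAdd_ofAdd]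
        change FreeGroup.mk [((e, p), true)] * _ = _
        rw [FreeGroup.mul_mk]
        simp [liftL, step]

/-- A conjugate of a cell or of its inverse. -/
structure Item (E : Type u) where
  /-- The conjugating path. -/
  conj : List (E × Bool)
  /-- The cell. -/
  cell : List (E × Bool)
  /-- The orientation. -/
  sign : Bool
  /-- Whether the cell is an equation. -/
  isEq : Bool

/-- The value of a conjugated cell. -/
def Item.val (i : Item E) : FreeGroup E :=
  FreeGroup.mk i.conj * (if i.sign then FreeGroup.mk i.cell else (FreeGroup.mk i.cell)⁻¹) *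
    (FreeGroup.mk i.conj)⁻¹

/-- The lift of a conjugated cell, based at level zero. -/
def Item.lift (i : Item E) : Item (E × ℤ) :=
  ⟨liftL φ 0 i.conj, liftL φ (height φ i.conj) i.cell, i.sign, i.isEq⟩

theorem liftHom_val (i : Item E) (h : height φ i.cell = 0) :
    (liftHom φ i.val).right = 1 ∧ (liftHom φ i.val).left 0 = (i.lift φ).val := by
  obtain ⟨hu, hu'⟩ := liftHom_mk φ i.conj
  obtain ⟨hc, hc'⟩ := liftHom_mk φ i.cell
  rw [h, ofAdd_zero] at hc
  have key : ∀ u c : WrZ (FreeGroup (E × ℤ)), c.right = 1 → (u * c * u⁻¹).right = 1 ∧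
      (u * c * u⁻¹).left 0 = u.left 0 * c.left (Multiplicative.toAdd u.right) * (u.left 0)⁻¹ := by
    intro u c hc
    constructor
    · simp [hc]
    · simp [WrZ.left_mul, WrZ.left_inv, hc]
  have hval : liftHom φ i.val = liftHom φ (FreeGroup.mk i.conj) *
      (if i.sign then liftHom φ (FreeGroup.mk i.cell) else (liftHom φ (FreeGroup.mk i.cell))⁻¹) *
      (liftHom φ (FreeGroup.mk i.conj))⁻¹ := by
    rw [Item.val, map_mul, map_mul, map_inv]
    cases i.sign <;> simp only [↓reduceIte, Bool.false_eq_true, map_inv]
  rw [hval]
  refine ⟨(key _ _ (by cases i.sign <;> simp [hc])).1, ?_⟩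
  rw [(key _ _ (by cases i.sign <;> simp [hc])).2, hu, toAdd_ofAdd, hu']
  unfold Item.val Item.lift
  cases i.sign
  · simp only [Bool.false_eq_true, ↓reduceIte]
    rw [WrZ.left_inv, hc, hc', toAdd_one, sub_zero]
  · simp only [↓reduceIte]
    rw [hc']

theorem liftHom_prod (L : List (Item E)) (h : ∀ i ∈ L, height φ i.cell = 0) :
    (liftHom φ (L.map Item.val).prod).right = 1 ∧
      (liftHom φ (L.map Item.val).prod).left 0 =
        ((L.map (Item.lift φ)).map Item.val).prod := by
  induction L with
  | nil => simp
  | cons i L ih =>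
    obtain ⟨h1, h2⟩ := liftHom_val φ i (h i List.mem_cons_self)
    obtain ⟨h3, h4⟩ := ih fun j hj => h j (List.mem_cons_of_mem _ hj)
    constructor
    · simp [h1, h3]
    · rw [List.map_cons, List.prod_cons, map_mul, WrZ.left_mul, h1, h2, toAdd_one, add_zero, h4]
      rfl

section Value

variable {H : Type w} [Group H]

/-- The value of a word along a labelling of the edges. -/
def evalL (val : E → H) (l : List (E × Bool)) : H :=
  (l.map fun x => if x.2 then val x.1 else (val x.1)⁻¹).prod

theorem lift_mk (val : E → H) (l : List (E × Bool)) :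
    FreeGroup.lift val (FreeGroup.mk l) = evalL val l := by
  rw [FreeGroup.lift_mk]
  unfold evalL
  congr 1
  refine List.map_congr_left fun x _ => ?_
  cases x.2 <;> rfl

theorem evalL_liftL (val : E → H) (t : ℤ) (l : List (E × Bool)) :
    evalL (fun e : E × ℤ => val e.1) (liftL φ t l) = evalL val l := by
  induction l generalizing t with
  | nil => rfl
  | cons x l ih =>
    simp only [evalL, liftL, List.map_cons, List.prod_cons] at ih ⊢
    rw [ih]

/-- Change of potentials telescopes along paths. -/
theorem evalL_gauge (val val' : E → H) (pot : V → H) {a b : V} {l : List (E × Bool)}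
    (h : IsPath src tgt a l b)
    (hval : ∀ x ∈ l, val' x.1 = pot (src x.1) * val x.1 * (pot (tgt x.1))⁻¹) :
    evalL val' l = pot a * evalL val l * (pot b)⁻¹ := by
  induction l generalizing a with
  | nil =>
    have : a = b := h
    simp [evalL, this]
  | cons x l ih =>
    obtain ⟨e, s⟩ := x
    obtain ⟨h1, h2⟩ := h
    have := ih h2 fun y hy => hval y (List.mem_cons_of_mem _ hy)
    have he := hval (e, s) List.mem_cons_self
    simp only [evalL, List.map_cons, List.prod_cons] at this ⊢
    rw [this]
    subst h1
    cases s <;> simp [he, sgnSrc, sgnTgt, mul_assoc]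

end Value

end Vale.Agent.P174.Tower
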