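import Mathlib

/-!
P174, towers: groups without a surjection onto the integers, locally indicable groups.
-/

namespace Vale.Agent.P174.Tower

universe u

/-- No nontrivial homomorphism to the integers. -/
def ZFree (G : Type u) [Group G] : Prop := ∀ f : G →* Multiplicative ℤ, f = 1

/-- Every finitely generated subgroup without a nontrivial homomorphism to the integers is
trivial. -/
def LocallyIndicable (G : Type u) [Group G] : Prop := ∀ L : Subgroup G, L.FG → ZFree L → L = ⊥

end Vale.Agent.P174.Tower
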