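import Vale.Agent.P174.Tower.Poly
import Vale.Agent.P174.Ext.Infinite

/-!
P174, towers: if every finitely generated subgroup without a surjection onto the integers solves
nonsingular systems, so does the group; closure under locally indicable quotients.
-/

namespace Vale.Agent.P174.Tower

open Monoid (Coprod)
open Vale.Agent.P174.Ext

universe u v w

section Lemmas

variable {E : Type u} {V : Type v} (src tgt : E → V)

theorem height_eq_wt (φ : E → ℤ) (l : List (E × Bool)) : height φ l = wt φ l := rfl

theorem cast_wt (φ : E → ℤ) (l : List (E × Bool)) :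
    ((wt φ l : ℤ) : ℚ) = wt (fun e => (φ e : ℚ)) l := by
  induction l with
  | nil => simp [wt]
  | cons x l ih =>
    simp only [wt, List.map_cons, List.sum_cons, Int.cast_add] at ih ⊢
    rw [ih]
    split_ifs <;> simp

theorem map_evalL {H K : Type*} [Group H] [Group K] (f : H →* K) (val : E → H)
    (l : List (E × Bool)) : f (evalL val l) = evalL (fun e => f (val e)) l := by
  induction l with
  | nil => simp [evalL]
  | cons x l ih =>
    simp only [evalL, List.map_cons, List.prod_cons, map_mul] at ih ⊢
    rw [ih]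
    split_ifs <;> simp

theorem toAdd_evalL {A : Type*} [AddCommGroup A] (F : E → A) (l : List (E × Bool)) :
    Multiplicative.toAdd (evalL (fun e => Multiplicative.ofAdd (F e)) l) = wt F l := by
  induction l with
  | nil => simp [evalL, wt]
  | cons x l ih =>
    simp only [evalL, wt, List.map_cons, List.prod_cons, List.sum_cons, toAdd_mul] at ih ⊢
    rw [ih]
    split_ifs <;> simp

theorem evalL_congr {H : Type*} [Group H] {f g : E → H} {l : List (E × Bool)}
    (h : ∀ x ∈ l, f x.1 = g x.1) : evalL f l = evalL g l := by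
  unfold evalL
  congr 1
  exact List.map_congr_left fun x hx => by rw [h x hx]

theorem wt_congr {A : Type*} [AddCommGroup A] {f g : E → A} {l : List (E × Bool)}
    (h : ∀ x ∈ l, f x.1 = g x.1) : wt f l = wt g l := by
  unfold wt
  congr 1
  exact List.map_congr_left fun x hx => by rw [h x hx]

theorem wt_sub_potential (P : V → ℤ) (φ : E → ℤ) {a b : V} {l : List (E × Bool)}
    (h : IsPath src tgt a l b) (hφ : ∀ x ∈ l, φ x.1 = P (tgt x.1) - P (src x.1)) :
    wt φ l = P b - P a := by
  induction l generalizing a with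
  | nil =>
    have : a = b := h
    simp [wt, this]
  | cons x l ih =>
    obtain ⟨e, s⟩ := x
    obtain ⟨h1, h2⟩ := h
    have := ih h2 fun y hy => hφ y (List.mem_cons_of_mem _ hy)
    have he := hφ (e, s) List.mem_cons_self
    simp only [wt, List.map_cons, List.sum_cons] at this ⊢
    rw [this]
    subst h1
    cases s <;> simp [he, sgnSrc, sgnTgt] <;> ring

theorem isPath_append {a b c : V} {l m : List (E × Bool)} (h : IsPath src tgt a l b)
    (h' : IsPath src tgt b m c) : IsPath src tgt a (l ++ m) c := by
  induction l generalizing a with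
  | nil =>
    have : a = b := h
    simpa [this] using h'
  | cons x l ih => exact ⟨h.1, ih h.2⟩

theorem isPath_invRev {a b : V} {l : List (E × Bool)} (h : IsPath src tgt a l b) :
    IsPath src tgt b (FreeGroup.invRev l) a := by
  induction l generalizing a with
  | nil =>
    have : a = b := h
    simp [FreeGroup.invRev, IsPath, this]
  | cons x l ih =>
    obtain ⟨e, s⟩ := x
    obtain ⟨h1, h2⟩ := h
    have : FreeGroup.invRev ((e, s) :: l) = FreeGroup.invRev l ++ [(e, !s)] := by
      simp [FreeGroup.invRev]
    rw [this]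
    refine isPath_append src tgt (ih h2) ?_
    subst h1
    cases s <;> simp [IsPath, sgnSrc, sgnTgt]

theorem isPath_unit (src tgt : E → PUnit.{w + 1}) (a b : PUnit.{w + 1}) (l : List (E × Bool)) :
    IsPath src tgt a l b := by
  induction l generalizing a with
  | nil => exact Subsingleton.elim a b
  | cons x l ih => exact ⟨Subsingleton.elim _ _, ih _⟩

end Lemmas

section Tower

variable {G : Type u} [Group G] {E : Type u} {V : Type u}

/-- All signed edges of a diagram. -/
def letters (ea : E) (items : List (Item E)) : List (E × Bool) :=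
  (ea, true) :: items.flatMap fun i => i.conj ++ i.cell

/-- The equation cells of a diagram. -/
def eqCells [DecidableEq E] (items : List (Item E)) : Finset (List (E × Bool)) :=
  ((items.filter fun i => i.isEq).map Item.cell).toFinset

/-- A diagram showing that the coefficient `a` dies. -/
structure Valid [DecidableEq E] (lab : E → Option G) (src tgt : E → V) (base : V) (ea : E)
    (a : G) (items : List (Item E)) : Prop where
  lab_ea : lab ea = some a
  src_ea : src ea = base
  tgt_ea : tgt ea = base
  paths : ∀ i ∈ items, ∃ x, IsPath src tgt base i.conj x ∧ IsPath src tgt x i.cell x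
  relations : ∀ i ∈ items, i.isEq = false →
    (∀ y ∈ i.cell, (lab y.1).isSome) ∧ evalL (fun e => (lab e).getD 1) i.cell = 1
  identity : FreeGroup.of ea = (items.map Item.val).prod
  surj : ∀ T : List (E × Bool) → ℚ, ∃ F : E → ℚ, (∀ e, ¬lab e = none → F e = 0) ∧
    ∀ c ∈ eqCells items, wt F c = T c

variable [DecidableEq E] {lab : E → Option G} {src tgt : E → V} {base : V} {ea : E} {a : G}
  {items : List (Item E)}

theorem mem_letters_conj {i : Item E} (hi : i ∈ items) {x : E × Bool} (hx : x ∈ i.conj) :
    x ∈ letters ea items :=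
  List.mem_cons_of_mem _ (List.mem_flatMap.mpr ⟨i, hi, List.mem_append_left _ hx⟩)

theorem mem_letters_cell {i : Item E} (hi : i ∈ items) {x : E × Bool} (hx : x ∈ i.cell) :
    x ∈ letters ea items :=
  List.mem_cons_of_mem _ (List.mem_flatMap.mpr ⟨i, hi, List.mem_append_right _ hx⟩)

theorem mem_eqCells {c : List (E × Bool)} :
    c ∈ eqCells items ↔ ∃ i ∈ items, i.isEq = true ∧ i.cell = c := by
  simp [eqCells, and_assoc]

/-- The case in which every cocycle is a coboundary. -/
theorem eq_one_of_rigid
    (hG : ∀ K : Subgroup G, K.FG → (∀ f : K →* Multiplicative ℤ, f = 1) → EquationsSolvable K)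
    (h : Valid lab src tgt base ea a items)
    (hrig : ∀ φ : E → ℤ, (∀ i ∈ items, height φ i.cell = 0) →
      ∃ P : V → ℤ, ∀ x ∈ letters ea items, φ x.1 = P (tgt x.1) - P (src x.1)) :
    a = 1 := by
  classical
  let ES : Finset E := ((letters ea items).map Prod.fst).toFinset
  have hES : ∀ x ∈ letters ea items, x.1 ∈ ES := fun x hx =>
    List.mem_toFinset.mpr (List.mem_map.mpr ⟨x, hx, rfl⟩)
  have hES' : ∀ e ∈ ES, ∃ x ∈ letters ea items, x.1 = e := fun e he =>
    List.mem_map.mp (List.mem_toFinset.mp he)
  let GPath : List (E × Bool) → Prop := fun l => ∀ y ∈ l, y.1 ∈ ES ∧ (lab y.1).isSome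
  let st : Setoid V :=
    { r := fun v v' => ∃ l, GPath l ∧ IsPath src tgt v l v'
      iseqv :=
        { refl := fun v => ⟨[], by simp [GPath], rfl⟩
          symm := fun {v v'} ⟨l, hl, hp⟩ => ⟨FreeGroup.invRev l, fun y hy => by
            simp only [FreeGroup.invRev, List.mem_reverse, List.mem_map] at hy
            obtain ⟨z, hz, rfl⟩ := hy
            exact hl z hz, isPath_invRev src tgt hp⟩
          trans := fun {v v' v''} ⟨l, hl, hp⟩ ⟨m, hm, hq⟩ => ⟨l ++ m,
            fun y hy => (List.mem_append.mp hy).elim (hl y) (hm y),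
            isPath_append src tgt hp hq⟩ } }
  let rep : V → V := fun v => (Quotient.mk st v).out
  have hrep : ∀ v, ∃ l, GPath l ∧ IsPath src tgt (rep v) l v := fun v => Quotient.mk_out (s := st) v
  choose γ hγ hγp using hrep
  let lv : E → G := fun e => (lab e).getD 1
  let pot : V → G := fun v => evalL lv (γ v)
  let adj : E → G := fun e => pot (src e) * lv e * (pot (tgt e))⁻¹
  let S : Finset G := (ES.filter fun e => (lab e).isSome).image adj
  let K : Subgroup G := Subgroup.closure (S : Set G)
  have hmem : ∀ e ∈ ES, (lab e).isSome → adj e ∈ K := fun e he hl =>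
    Subgroup.subset_closure (Finset.mem_image.mpr ⟨e, Finset.mem_filter.mpr ⟨he, hl⟩, rfl⟩)
  let adjK : E → K := fun e => if hm : adj e ∈ K then ⟨adj e, hm⟩ else 1
  have hadj : ∀ e ∈ ES, (lab e).isSome → (adjK e : G) = adj e := fun e he hl => by
    simp only [adjK, dif_pos (hmem e he hl)]
  have hval : ∀ (x y : V) (l : List (E × Bool)), IsPath src tgt x l y → GPath l →
      ((evalL adjK l : K) : G) = pot x * evalL lv l * (pot y)⁻¹ := by
    intro x y l hp hl
    rw [show ((evalL adjK l : K) : G) = K.subtype (evalL adjK l) from rfl, map_evalL]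
    exact evalL_gauge src tgt lv _ pot hp fun z hz => hadj _ (hl z hz).1 (hl z hz).2
  have hcellG : ∀ i ∈ items, i.isEq = false → evalL adjK i.cell = 1 := by
    intro i hi heq
    obtain ⟨hl, hone⟩ := h.relations i hi heq
    obtain ⟨x, -, hx⟩ := h.paths i hi
    apply Subtype.ext
    rw [hval x x i.cell hx fun y hy => ⟨hES y (mem_letters_cell hi hy), hl y hy⟩, hone]
    simp
  have hK : ∀ f : K →* Multiplicative ℤ, f = 1 := by
    intro f
    let ψ : E → ℤ := fun e => if (lab e).isSome then Multiplicative.toAdd (f (adjK e)) else 0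
    have hψ : ∀ l : List (E × Bool), (∀ y ∈ l, (lab y.1).isSome) →
        Multiplicative.toAdd (f (evalL adjK l)) = wt ψ l := fun l hl => by
      rw [map_evalL, ← toAdd_evalL]
      congr 1
      exact evalL_congr fun y hy => by simp [ψ, hl y hy]
    obtain ⟨F, hF0, hF⟩ := h.surj fun c => -((wt ψ c : ℤ) : ℚ)
    let N : ℕ := ∏ e ∈ ES, (F e).den
    have hN : N ≠ 0 := Finset.prod_ne_zero_iff.mpr fun e _ => (F e).den_nz
    let φ : E → ℤ := fun e => N * ψ e + ((N / (F e).den : ℕ) : ℤ) * (F e).num
    have hφ : ∀ e ∈ ES, (φ e : ℚ) = N * (ψ e + F e) := by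
      intro e he
      have hd : (F e).den ∣ N := Finset.dvd_prod_of_mem _ he
      have : ((N / (F e).den : ℕ) : ℚ) * (F e).num = N * F e := by
        conv_rhs => rw [← Rat.num_div_den (F e)]
        rw [Nat.cast_div hd (by exact_mod_cast (F e).den_nz)]
        ring
      simp only [φ, Int.cast_add, Int.cast_mul, Int.cast_natCast]
      rw [mul_add, ← this]
    have hlin : ∀ (f g : E → ℚ) (l : List (E × Bool)),
        wt (fun e => (N : ℚ) * (f e + g e)) l = N * (wt f l + wt g l) := by
      intro f g l
      induction l with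
      | nil => simp [wt]
      | cons y l ih =>
        simp only [wt, List.map_cons, List.sum_cons] at ih ⊢
        rw [ih]
        split_ifs <;> ring
    have hcast : ∀ l : List (E × Bool), (∀ y ∈ l, y.1 ∈ ES) →
        ((wt φ l : ℤ) : ℚ) = N * (((wt ψ l : ℤ) : ℚ) + wt F l) := fun l hl => by
      rw [cast_wt, cast_wt, ← hlin]
      exact wt_congr fun y hy => hφ _ (hl y hy)
    have hkill : ∀ i ∈ items, height φ i.cell = 0 := by
      intro i hi
      have h2 := hcast i.cell fun y hy => hES y (mem_letters_cell hi hy)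
      have : ((wt φ i.cell : ℤ) : ℚ) = 0 := by
        rw [h2]
        rcases Bool.eq_false_or_eq_true i.isEq with heq | heq
        · rw [hF _ (mem_eqCells.mpr ⟨i, hi, heq, rfl⟩)]
          simp
        · have hz : wt F i.cell = 0 := by
            rw [wt_congr (g := fun _ => (0 : ℚ)) fun y hy => hF0 y.1 fun hnone => by
              simpa [hnone] using (h.relations i hi heq).1 y hy]
            simp [wt]
          rw [hz, ← hψ _ (h.relations i hi heq).1, hcellG i hi heq]
          simp
      exact_mod_cast this
    obtain ⟨P, hP⟩ := hrig φ hkill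
    have hPe : ∀ e ∈ ES, φ e = P (tgt e) - P (src e) := fun e he => by
      obtain ⟨x, hx, rfl⟩ := hES' e he
      exact hP x hx
    have hG' : ∀ e ∈ ES, (lab e).isSome → φ e = N * ψ e := by
      intro e _ hl
      have : F e = 0 := hF0 e fun hnone => by simp [hnone] at hl
      simp [φ, this]
    have hsum : ∀ v, P v - P (rep v) = N * Multiplicative.toAdd (f (evalL adjK (γ v))) := by
      intro v
      rw [← wt_sub_potential src tgt P φ (hγp v) fun y hy => hPe _ (hγ v y hy).1,
        hψ _ fun y hy => (hγ v y hy).2]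
      have : ∀ (f : E → ℤ) (l : List (E × Bool)),
          wt (fun e => (N : ℤ) * f e) l = N * wt f l := by
        intro f l
        induction l with
        | nil => simp [wt]
        | cons y l ih =>
          simp only [wt, List.map_cons, List.sum_cons] at ih ⊢
          rw [ih]
          split_ifs <;> ring
      rw [← this]
      exact wt_congr fun y hy => hG' _ (hγ v y hy).1 (hγ v y hy).2
    have hbase : ∀ v, evalL adjK (γ v) = evalL adjK (γ (rep v)) := by
      intro v
      have hrr : rep (rep v) = rep v := by simp only [rep, Quotient.out_eq]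
      apply Subtype.ext
      rw [hval _ _ _ (hγp v) (hγ v), hval _ _ _ (hγp (rep v)) (hγ (rep v))]
      simp only [pot, hrr]
      group
    have hflat : ∀ v, P v = P (rep v) := by
      intro v
      have h1 := hsum v
      have h2 := hsum (rep v)
      rw [show rep (rep v) = rep v from by simp only [rep, Quotient.out_eq], sub_self] at h2
      rw [hbase, ← h2] at h1
      exact sub_eq_zero.mp h1
    have hgen : ∀ k : K, (k : G) ∈ (S : Set G) → f k = 1 := by
      intro k hk
      obtain ⟨e, he, hek⟩ := Finset.mem_image.mp hk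
      obtain ⟨he, hl⟩ := Finset.mem_filter.mp he
      have hk' : k = adjK e := Subtype.ext (by rw [hadj e he hl, hek])
      have hr : rep (src e) = rep (tgt e) := by
        simp only [rep]
        congr 1
        exact Quotient.sound (s := st) ⟨[(e, true)], fun y hy => by
          simp only [List.mem_singleton] at hy
          subst hy
          exact ⟨he, hl⟩, by simp [IsPath, sgnSrc, sgnTgt]⟩
      have h0 : (N : ℤ) * ψ e = 0 := by
        rw [← hG' e he hl, hPe e he, hflat (tgt e), hflat (src e), hr, sub_self]
      rcases mul_eq_zero.mp h0 with h0 | h0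
      · exact absurd (by exact_mod_cast h0) hN
      · simp only [ψ, hl, if_pos] at h0
        rw [hk']
        exact Multiplicative.toAdd.injective h0
    refine MonoidHom.ext fun k => ?_
    have : k ∈ f.ker := by
      obtain ⟨k, hk⟩ := k
      induction hk using Subgroup.closure_induction with
      | mem x hx => exact hgen _ hx
      | one => exact one_mem _
      | mul x y _ _ hx hy => exact Subgroup.mul_mem f.ker hx hy
      | inv x _ hx => exact Subgroup.inv_mem f.ker hx
    exact this
  let Y : Finset E := ES.filter fun e => lab e = none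
  let word : E → Coprod K (FreeGroup (Fin Y.card)) := fun e =>
    if hy : e ∈ Y then Coprod.inr (FreeGroup.of (Y.equivFin ⟨e, hy⟩))
    else Coprod.inl (adjK e)
  let cell : Fin (eqCells items).card → List (E × Bool) := fun j =>
    ((eqCells items).equivFin.symm j).1
  have hwt : ∀ (F : E → ℚ), (∀ e, ¬lab e = none → F e = 0) → ∀ l : List (E × Bool),
      (∀ y ∈ l, y.1 ∈ ES) →
      ∑ j, ((Multiplicative.toAdd (exponents K Y.card (evalL word l)) j : ℤ) : ℚ) *
        F (Y.equivFin.symm j) = wt F l := by
    intro F hF0 l hl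
    change ∑ j, (expo (evalL word l) j : ℚ) * F (Y.equivFin.symm j) = _
    induction l with
    | nil => simp [evalL, wt, expo]
    | cons y l ih =>
      have he : y.1 ∈ ES := hl y List.mem_cons_self
      have hone : ∑ j, (expo (word y.1) j : ℚ) * F (Y.equivFin.symm j) = F y.1 := by
        simp only [word]
        split_ifs with hy
        · simp [expo_of, ite_mul]
        · rw [hF0 y.1 fun hn => hy (Finset.mem_filter.mpr ⟨he, hn⟩)]
          simp
      have ih' := ih fun z hz => hl z (List.mem_cons_of_mem _ hz)
      simp only [evalL, wt, List.map_cons, List.prod_cons, List.sum_cons, expo_mul, Int.cast_add,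
        add_mul, Finset.sum_add_distrib] at ih' ⊢
      rw [ih']
      congr 1
      split_ifs
      · exact hone
      · simp [expo_inv, hone]
  obtain ⟨H, _, ι, hX, hι, hh⟩ := hG K ⟨S, rfl⟩ hK (eqCells items).card Y.card
    (fun j => evalL word (cell j)) (by
      rw [Fintype.linearIndependent_iff]
      intro c hc j₀
      obtain ⟨F, hF0, hF⟩ := h.surj fun l => if l = cell j₀ then 1 else 0
      have hmemc : ∀ j, cell j ∈ eqCells items := fun j => ((eqCells items).equivFin.symm j).2
      have hsum : ∑ j, c j * wt F (cell j) = 0 := by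
        have hY : ∀ j, ∀ y ∈ cell j, y.1 ∈ ES := fun j y hy => by
          obtain ⟨i, hi, -, hic⟩ := mem_eqCells.mp (hmemc j)
          exact hES y (mem_letters_cell hi (hic ▸ hy))
        simp_rw [← hwt F hF0 _ (hY _), Finset.mul_sum, ← mul_assoc]
        rw [Finset.sum_comm]
        refine Finset.sum_eq_zero fun x _ => ?_
        have := congrFun hc x
        simp only [Finset.sum_apply, Pi.smul_apply, smul_eq_mul, Pi.zero_apply] at this
        rw [← Finset.sum_mul, this, zero_mul]
      rw [Finset.sum_eq_single j₀] at hsum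
      · rwa [hF _ (hmemc _), if_pos rfl, mul_one] at hsum
      · intro j _ hne
        rw [hF _ (hmemc _), if_neg fun heq => hne
          ((eqCells items).equivFin.symm.injective (Subtype.ext heq)), mul_zero]
      · simp)
  let val₂ : E → H := fun e => Coprod.lift ι (FreeGroup.lift hX) (word e)
  have hitem : ∀ i ∈ items, FreeGroup.lift val₂ (FreeGroup.mk i.cell) = 1 := by
    intro i hi
    rw [lift_mk]
    rcases Bool.eq_false_or_eq_true i.isEq with heq | heq
    · have hmc : i.cell ∈ eqCells items := mem_eqCells.mpr ⟨i, hi, heq, rfl⟩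
      have := hh ((eqCells items).equivFin ⟨_, hmc⟩)
      simp only [cell, Equiv.symm_apply_apply] at this
      rwa [map_evalL] at this
    · have hl := (h.relations i hi heq).1
      rw [evalL_congr (g := fun e => ι (adjK e)) fun y hy => ?_, ← map_evalL, hcellG i hi heq,
        map_one]
      have : y.1 ∉ Y := fun hy' => by
        simpa [(Finset.mem_filter.mp hy').2] using hl y hy
      simp [val₂, word, this]
  have hea : FreeGroup.lift val₂ (FreeGroup.of ea) = 1 := by
    rw [h.identity, map_list_prod]
    refine List.prod_eq_one fun z hz => ?_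
    simp only [List.map_map, List.mem_map, Function.comp_apply] at hz
    obtain ⟨i, hi, rfl⟩ := hz
    unfold Item.val
    rw [map_mul, map_mul, map_inv]
    split_ifs <;> simp only [map_inv, hitem i hi, inv_one, mul_one, mul_inv_cancel]
  have heaY : ea ∉ Y := fun hy => by simpa [h.lab_ea] using (Finset.mem_filter.mp hy).2
  simp only [FreeGroup.lift_apply_of, val₂, word, dif_neg heaY, Coprod.lift_apply_inl] at hea
  have h1 : adjK ea = 1 := hι (hea.trans (map_one ι).symm)
  have h2 := hadj ea (hES (ea, true) List.mem_cons_self) (by simp [h.lab_ea])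
  rw [h1] at h2
  simp [adj, lv, h.lab_ea, h.src_ea, h.tgt_ea] at h2
  calc a = (pot base)⁻¹ * (pot base * a * (pot base)⁻¹) * pot base := by group
    _ = 1 := by rw [← h2]; group

theorem length_letters_lift (φ : E → ℤ) :
    (letters (ea, (0 : ℤ)) (items.map (Item.lift φ))).length = (letters ea items).length := by
  simp [letters, List.length_flatMap, List.map_map, Function.comp_def, Item.lift, length_liftL]

theorem mem_letters_lift (φ : E → ℤ) {e : E} (he : e ∈ (letters ea items).map Prod.fst) :
    ∃ p, (e, p) ∈ (letters (ea, (0 : ℤ)) (items.map (Item.lift φ))).map Prod.fst := by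
  simp only [List.mem_map, letters, List.mem_cons, List.mem_flatMap, List.mem_append] at he
  obtain ⟨x, hx, rfl⟩ := he
  rcases hx with rfl | ⟨i, hi, hx | hx⟩
  · exact ⟨0, by simp [letters]⟩
  · obtain ⟨p, hp⟩ := (mem_liftL_fst φ (t := 0)).mp (List.mem_map.mpr ⟨x, hx, rfl⟩)
    obtain ⟨y, hy, hy'⟩ := List.mem_map.mp hp
    exact ⟨p, List.mem_map.mpr ⟨y, mem_letters_conj (List.mem_map.mpr ⟨i, hi, rfl⟩) hy, hy'⟩⟩
  · obtain ⟨p, hp⟩ := (mem_liftL_fst φ (t := height φ i.conj)).mp
      (List.mem_map.mpr ⟨x, hx, rfl⟩)
    obtain ⟨y, hy, hy'⟩ := List.mem_map.mp hp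
    exact ⟨p, List.mem_map.mpr ⟨y, mem_letters_cell (List.mem_map.mpr ⟨i, hi, rfl⟩) hy, hy'⟩⟩

theorem cocycle_ea (h : Valid lab src tgt base ea a items) (φ : E → ℤ)
    (hφ : ∀ i ∈ items, height φ i.cell = 0) : φ ea = 0 := by
  have h1 := (liftHom_prod φ items hφ).1
  rw [← h.identity] at h1
  simpa [liftHom] using h1

/-- The lifted diagram. -/
theorem valid_lift (h : Valid lab src tgt base ea a items) (φ : E → ℤ)
    (hφ : ∀ i ∈ items, height φ i.cell = 0) :
    Valid (fun e : E × ℤ => lab e.1) (fun e : E × ℤ => (src e.1, e.2))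
      (fun e : E × ℤ => (tgt e.1, e.2 + φ e.1)) (base, (0 : ℤ)) (ea, (0 : ℤ)) a
      (items.map (Item.lift φ)) where
  lab_ea := h.lab_ea
  src_ea := by simp [h.src_ea]
  tgt_ea := by simp [h.tgt_ea, cocycle_ea h φ hφ]
  paths := by
    intro j hj
    obtain ⟨i, hi, rfl⟩ := List.mem_map.mp hj
    obtain ⟨x, hu, hc⟩ := h.paths i hi
    refine ⟨(x, height φ i.conj), ?_, ?_⟩
    · have := isPath_liftL φ src tgt hu 0
      rwa [zero_add] at this
    · have := isPath_liftL φ src tgt hc (height φ i.conj)
      rwa [hφ i hi, add_zero] at this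
  relations := by
    intro j hj heq
    obtain ⟨i, hi, rfl⟩ := List.mem_map.mp hj
    obtain ⟨hl, hone⟩ := h.relations i hi heq
    refine ⟨fun y hy => ?_, (evalL_liftL φ (fun e => (lab e).getD 1) _ _).trans hone⟩
    obtain ⟨z, hz, hz'⟩ := List.mem_map.mp
      ((mem_liftL_fst φ (t := height φ i.conj) (e := y.1.1)).mpr
        ⟨y.1.2, List.mem_map.mpr ⟨y, hy, rfl⟩⟩)
    rw [← hz']
    exact hl z hz
  identity := by
    have h2 := (liftHom_prod φ items hφ).2
    rw [← h.identity] at h2
    simpa [liftHom] using h2
  surj := by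
    intro T
    obtain ⟨F, hF0, hF⟩ := exists_lift_weight φ (fun e => lab e = none) (eqCells items) h.surj T
      (items.map fun i => height φ i.conj).toFinset
    refine ⟨F, hF0, fun c hc => ?_⟩
    obtain ⟨j, hj, heq, rfl⟩ := mem_eqCells.mp hc
    obtain ⟨i, hi, rfl⟩ := List.mem_map.mp hj
    exact hF i.cell (mem_eqCells.mpr ⟨i, hi, heq, rfl⟩) _
      (List.mem_toFinset.mpr (List.mem_map.mpr ⟨i, hi, rfl⟩))

end Tower

/-- The vertices met by a diagram. -/
noncomputable def usedV {E V : Type u} (src tgt : E → V) (ea : E) (items : List (Item E)) :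
    Finset V := by
  classical
  exact ((letters ea items).map fun x => src x.1).toFinset ∪
    ((letters ea items).map fun x => tgt x.1).toFinset

theorem mem_usedV {E V : Type u} {src tgt : E → V} {ea : E} {items : List (Item E)} {v : V} :
    v ∈ usedV src tgt ea items ↔
      ∃ x ∈ letters ea items, src x.1 = v ∨ tgt x.1 = v := by
  classical
  simp only [usedV, Finset.mem_union, List.mem_toFinset, List.mem_map]
  constructor
  · rintro (⟨x, hx, h⟩ | ⟨x, hx, h⟩)
    exacts [⟨x, hx, Or.inl h⟩, ⟨x, hx, Or.inr h⟩]
  · rintro ⟨x, hx, h | h⟩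
    exacts [Or.inl ⟨x, hx, h⟩, Or.inr ⟨x, hx, h⟩]

theorem card_usedV_le {E V : Type u} (src tgt : E → V) (ea : E) (items : List (Item E)) :
    (usedV src tgt ea items).card ≤ 2 * (letters ea items).length := by
  classical
  refine le_trans (Finset.card_union_le _ _) ?_
  have h1 := List.toFinset_card_le ((letters ea items).map fun x => src x.1)
  have h2 := List.toFinset_card_le ((letters ea items).map fun x => tgt x.1)
  rw [List.length_map] at h1 h2
  omega

/-- Climbing the tower. -/
theorem eq_one_of_valid {G : Type u} [Group G]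
    (hG : ∀ K : Subgroup G, K.FG → (∀ f : K →* Multiplicative ℤ, f = 1) → EquationsSolvable K) :
    ∀ (m : ℕ) (E V : Type u) [DecidableEq E] (lab : E → Option G) (src tgt : E → V) (base : V)
      (ea : E) (a : G) (items : List (Item E)), Valid lab src tgt base ea a items →
      2 * (letters ea items).length - (usedV src tgt ea items).card ≤ m → a = 1 := by
  classical
  intro m
  induction m using Nat.strong_induction_on with
  | _ m ih =>
    intro E V _ lab src tgt base ea a items h hm
    by_cases hrig : ∀ φ : E → ℤ, (∀ i ∈ items, height φ i.cell = 0) →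
        ∃ P : V → ℤ, ∀ x ∈ letters ea items, φ x.1 = P (tgt x.1) - P (src x.1)
    · exact eq_one_of_rigid hG h hrig
    push Not at hrig
    obtain ⟨φ, hφ, hno⟩ := hrig
    have hv := valid_lift h φ hφ
    set L' := letters (ea, (0 : ℤ)) (items.map (Item.lift φ)) with hL'
    set A := usedV src tgt ea items with hA
    set B := usedV (fun e : E × ℤ => (src e.1, e.2)) (fun e : E × ℤ => (tgt e.1, e.2 + φ e.1))
      (ea, (0 : ℤ)) (items.map (Item.lift φ)) with hB
    have hlift : ∀ x ∈ letters ea items, ∃ p : ℤ, (src x.1, p) ∈ B ∧ (tgt x.1, p + φ x.1) ∈ B := by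
      intro x hx
      obtain ⟨p, hp⟩ := mem_letters_lift φ (List.mem_map.mpr ⟨x, hx, rfl⟩)
      obtain ⟨y, hy, hy'⟩ := List.mem_map.mp hp
      exact ⟨p, mem_usedV.mpr ⟨y, hy, Or.inl (by rw [hy'])⟩,
        mem_usedV.mpr ⟨y, hy, Or.inr (by rw [hy'])⟩⟩
    have hsub : A ⊆ B.image Prod.fst := by
      intro v hv
      obtain ⟨x, hx, hxv⟩ := mem_usedV.mp hv
      obtain ⟨p, hp, hp'⟩ := hlift x hx
      rcases hxv with rfl | rfl
      exacts [Finset.mem_image.mpr ⟨_, hp, rfl⟩, Finset.mem_image.mpr ⟨_, hp', rfl⟩]
    have hlt : A.card < B.card := by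
      by_contra hle
      have hinj : Set.InjOn (Prod.fst : V × ℤ → V) B :=
        Finset.card_image_iff.mp (le_antisymm Finset.card_image_le
          ((not_lt.mp hle).trans (Finset.card_le_card hsub)))
      let P : V → ℤ := fun v => if hv : ∃ p : ℤ, (v, p) ∈ B then hv.choose else 0
      have hP : ∀ v p, (v, p) ∈ B → P v = p := by
        intro v p hp
        have hex : ∃ p : ℤ, (v, p) ∈ B := ⟨p, hp⟩
        simp only [P, dif_pos hex]
        exact congrArg Prod.snd (hinj hex.choose_spec hp rfl)
      obtain ⟨x, hx, hne⟩ := hno P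
      obtain ⟨p, hp, hp'⟩ := hlift x hx
      exact hne (by rw [hP _ _ hp, hP _ _ hp']; ring)
    have hb : B.card ≤ 2 * (letters ea items).length := by
      rw [← length_letters_lift (ea := ea) (items := items) φ]
      exact card_usedV_le _ _ _ _
    exact ih (2 * (letters ea items).length - B.card) (by omega) (E × ℤ) (V × ℤ) _ _ _ _ _ _ _ hv
      (by rw [length_letters_lift])

/-- Products of conjugates of lists from a family. -/
theorem exists_items {E : Type u} [DecidableEq E] (R : List (E × Bool) → Bool → Prop)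
    {z : FreeGroup E}
    (hz : z ∈ Subgroup.normalClosure {y | ∃ l b, R l b ∧ y = FreeGroup.mk l}) :
    ∃ items : List (Item E), (∀ i ∈ items, R i.cell i.isEq) ∧ z = (items.map Item.val).prod := by
  induction hz using Subgroup.closure_induction with
  | mem x hx =>
    obtain ⟨r, ⟨l, b, hR, rfl⟩, c, hc⟩ := Group.mem_conjugatesOfSet_iff.mp hx |>.imp
      fun r hr => (⟨hr.1, isConj_iff.mp hr.2⟩ : _ ∧ _)
    exact ⟨[⟨c.toWord, l, true, b⟩], by simp [hR], by simp [Item.val, FreeGroup.mk_toWord, hc]⟩
  | one => exact ⟨[], by simp, by simp⟩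
  | mul x y _ _ hx hy =>
    obtain ⟨I, hI, rfl⟩ := hx
    obtain ⟨J, hJ, rfl⟩ := hy
    exact ⟨I ++ J, fun i hi => (List.mem_append.mp hi).elim (hI i) (hJ i), by simp⟩
  | inv x _ hx =>
    obtain ⟨I, hI, rfl⟩ := hx
    refine ⟨(I.map fun i => { i with sign := !i.sign }).reverse, ?_, ?_⟩
    · intro i hi
      simp only [List.mem_reverse, List.mem_map] at hi
      obtain ⟨j, hj, rfl⟩ := hi
      exact hI j hj
    · rw [List.prod_inv_reverse, List.map_reverse, List.map_map, List.map_map]
      congr 2
      refine List.map_congr_left fun i _ => ?_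
      obtain ⟨u, c, s, b⟩ := i
      cases s <;> simp [Item.val, mul_assoc]

/-- Howie's conjecture descends to finitely generated subgroups without a surjection onto `ℤ`. -/
theorem equationsSolvable_tower (G : Type u) [Group G]
    (hG : ∀ K : Subgroup G, K.FG → (∀ f : K →* Multiplicative ℤ, f = 1) → EquationsSolvable K) :
    EquationsSolvable G := by
  classical
  intro m n w hw
  let π : FreeGroup (G ⊕ Fin n) →* Coprod G (FreeGroup (Fin n)) :=
    FreeGroup.lift (Sum.elim (fun g => Coprod.inl g) fun j => Coprod.inr (FreeGroup.of j))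
  let tri : G → G → List ((G ⊕ Fin n) × Bool) := fun g h =>
    [(Sum.inl g, true), (Sum.inl h, true), (Sum.inl (g * h), false)]
  have hπ : Function.Surjective π := by
    intro z
    induction z using coprod_induction with
    | hG g => exact ⟨FreeGroup.of (Sum.inl g), by simp [π]⟩
    | hX x => exact ⟨FreeGroup.of (Sum.inr x), by simp [π]⟩
    | hmul a b ha hb =>
      obtain ⟨a', rfl⟩ := ha
      obtain ⟨b', rfl⟩ := hb
      exact ⟨a' * b', map_mul π a' b'⟩
    | hinv a ha =>
      obtain ⟨a', rfl⟩ := ha
      exact ⟨a'⁻¹, map_inv π a'⟩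
  choose W hW using fun i => hπ (w i)
  let R : List ((G ⊕ Fin n) × Bool) → Bool → Prop := fun l b =>
    (b = true ∧ ∃ i, l = (W i).toWord) ∨ (b = false ∧ ∃ g h, l = tri g h)
  let M : Subgroup (FreeGroup (G ⊕ Fin n)) :=
    Subgroup.normalClosure {y | ∃ l b, R l b ∧ y = FreeGroup.mk l}
  let μ := QuotientGroup.mk' M
  have htri : ∀ g h, μ (FreeGroup.of (Sum.inl g)) * μ (FreeGroup.of (Sum.inl h)) =
      μ (FreeGroup.of (Sum.inl (g * h))) := by
    intro g h
    have h1 : μ (FreeGroup.mk (tri g h)) = 1 := (QuotientGroup.eq_one_iff _).mpr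
      (Subgroup.subset_normalClosure ⟨_, false, Or.inr ⟨rfl, g, h, rfl⟩, rfl⟩)
    have h2 : FreeGroup.mk (tri g h) =
        FreeGroup.of (Sum.inl g) * FreeGroup.of (Sum.inl h) *
          (FreeGroup.of (Sum.inl (g * h)))⁻¹ := rfl
    rw [h2, map_mul, map_mul, map_inv, mul_inv_eq_one] at h1
    exact h1
  let Φ : Coprod G (FreeGroup (Fin n)) →* FreeGroup (G ⊕ Fin n) ⧸ M :=
    Coprod.lift (MonoidHom.mk' (fun g => μ (FreeGroup.of (Sum.inl g))) fun g h => (htri g h).symm)
      (FreeGroup.lift fun j => μ (FreeGroup.of (Sum.inr j)))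
  have hΦ : Φ.comp π = μ := by
    apply FreeGroup.ext_hom
    rintro (g | j) <;> simp [π, Φ]
  let Q := Coprod G (FreeGroup (Fin n)) ⧸ Subgroup.normalClosure (Set.range w)
  let q : Coprod G (FreeGroup (Fin n)) →* Q :=
    QuotientGroup.mk' (Subgroup.normalClosure (Set.range w))
  refine ⟨Q, inferInstance, q.comp Coprod.inl, fun j => q (Coprod.inr (FreeGroup.of j)), ?_,
    fun i => ?_⟩
  · rw [injective_iff_map_eq_one]
    intro a ha
    have ha' : Coprod.inl a ∈ Φ.ker := by
      refine Subgroup.normalClosure_le_normal ?_ ((QuotientGroup.eq_one_iff _).mp ha)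
      rintro _ ⟨i, rfl⟩
      change Φ (w i) = 1
      rw [← hW i, ← MonoidHom.comp_apply, hΦ]
      refine (QuotientGroup.eq_one_iff _).mpr (Subgroup.subset_normalClosure ?_)
      exact ⟨(W i).toWord, true, Or.inl ⟨rfl, i, rfl⟩, FreeGroup.mk_toWord.symm⟩
    have haM : FreeGroup.of (Sum.inl a) ∈ M := (QuotientGroup.eq_one_iff _).mp ha'
    obtain ⟨items, hR, hid⟩ := exists_items R haM
    obtain ⟨B, hB⟩ := exists_rightInverse (fun i j => (expo (w i) j : ℚ)) hw
    refine eq_one_of_valid hG _ (G ⊕ Fin n) PUnit.{u + 1}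
      (Sum.elim some fun _ => none) (fun _ => PUnit.unit) (fun _ => PUnit.unit) PUnit.unit
      (Sum.inl a) a items ⟨rfl, rfl, rfl, fun i _ => ⟨PUnit.unit, isPath_unit _ _ _ _ _,
        isPath_unit _ _ _ _ _⟩, ?_, hid, ?_⟩ le_rfl
    · intro i hi heq
      rcases hR i hi with ⟨hb, -⟩ | ⟨-, g, h, hl⟩
      · rw [heq] at hb
        exact absurd hb Bool.false_ne_true
      · simp [hl, tri, evalL]
    · intro T
      let F : G ⊕ Fin n → ℚ := Sum.elim (fun _ => 0) fun j => ∑ i, B j i * T (W i).toWord
      refine ⟨F, fun e he => ?_, fun c hc => ?_⟩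
      · rcases e with g | j
        · rfl
        · simp at he
      obtain ⟨it, hit, heq, rfl⟩ := mem_eqCells.mp hc
      rcases hR it hit with ⟨-, i, hl⟩ | ⟨hb, -⟩
      · have hc : (weight (N := G) fun j => F (Sum.inr j)).comp π =
            FreeGroup.lift fun e => Multiplicative.ofAdd (F e) := by
          apply FreeGroup.ext_hom
          rintro (g | j) <;> simp [π, weight, F]
        rw [← toAdd_evalL, ← lift_mk, hl, FreeGroup.mk_toWord, ← hc, MonoidHom.comp_apply, hW,
          weight_eq_sum]
        simp only [F, Sum.elim_inr, Finset.mul_sum, ← mul_assoc]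
        rw [Finset.sum_comm]
        simp [← Finset.sum_mul, hB]
      · rw [heq] at hb
        exact absurd hb.symm Bool.false_ne_true
  · have : Coprod.lift (q.comp Coprod.inl)
        (FreeGroup.lift fun j => q (Coprod.inr (FreeGroup.of j))) = q := by
      apply Coprod.hom_ext
      · ext g; simp
      · apply FreeGroup.ext_hom; intro x; simp
    rw [this]
    exact (QuotientGroup.eq_one_iff _).mpr (Subgroup.subset_normalClosure ⟨i, rfl⟩)

/-- Subgroups of groups in the class. -/
theorem equationsSolvable_of_injective {K G : Type u} [Group K] [Group G] (φ : K →* G)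
    (hφ : Function.Injective φ) (hG : EquationsSolvable G) : EquationsSolvable K :=
  equationsSolvable_residual K fun g hg =>
    ⟨G, inferInstance, φ, hG, fun h => hg (hφ (h.trans (map_one φ).symm))⟩

/-- Closure under extensions with locally indicable quotient. -/
theorem equationsSolvable_li_extension (G : Type u) [Group G] (N : Subgroup G) [N.Normal]
    (hN : EquationsSolvable N)
    (hQ : ∀ L : Subgroup (G ⧸ N), L.FG → (∀ f : L →* Multiplicative ℤ, f = 1) → L = ⊥) :
    EquationsSolvable G := by
  refine equationsSolvable_tower G fun K hK hf => ?_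
  have hbot : K.map (QuotientGroup.mk' N) = ⊥ := by
    obtain ⟨S, hS⟩ := hK
    refine hQ _ ?_ fun f => ?_
    · classical
      exact ⟨S.image (QuotientGroup.mk' N), by
        rw [← hS, MonoidHom.map_closure, Finset.coe_image]⟩
    · have h1 := hf (f.comp ((QuotientGroup.mk' N).subgroupMap K))
      refine MonoidHom.ext fun x => ?_
      obtain ⟨y, rfl⟩ := MonoidHom.subgroupMap_surjective (QuotientGroup.mk' N) K x
      exact DFunLike.congr_fun h1 y
  have hle : K ≤ N := by
    intro x hx
    have : QuotientGroup.mk' N x ∈ K.map (QuotientGroup.mk' N) := Subgroup.mem_map_of_mem _ hx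
    rw [hbot, Subgroup.mem_bot] at this
    exact (QuotientGroup.eq_one_iff x).mp this
  exact equationsSolvable_of_injective (Subgroup.inclusion hle) (Subgroup.inclusion_injective hle) hN

end Vale.Agent.P174.Tower
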