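import Vale.Agent.P174.Tower.Basic

/-!
P174, towers: independence of exponent rows is inherited by infinite cyclic covers.
-/

namespace Vale.Agent.P174.Tower

open Polynomial

universe u

variable {E : Type u}

/-- The exponent sum of a word weighted by `F`. -/
def wt {R : Type*} [AddCommGroup R] (F : E → R) (l : List (E × Bool)) : R :=
  (l.map fun x => if x.2 then F x.1 else -F x.1).sum

/-- Weights of the lifts of a word, as a polynomial in the starting level. -/
noncomputable def wtPoly (φ : E → ℤ) (F : E → ℚ[X]) : List (E × Bool) → ℚ[X]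
  | [] => 0
  | x :: l => (if x.2 then F x.1 else -taylor (-(φ x.1 : ℚ)) (F x.1)) +
      taylor (step φ x : ℚ) (wtPoly φ F l)

variable (φ : E → ℤ)

theorem eval_wtPoly (F : E → ℚ[X]) (l : List (E × Bool)) (t : ℤ) :
    (wtPoly φ F l).eval (t : ℚ) =
      wt (fun y : E × ℤ => (F y.1).eval (y.2 : ℚ)) (liftL φ t l) := by
  induction l generalizing t with
  | nil => simp [wtPoly, wt, liftL]
  | cons x l ih =>
    obtain ⟨e, s⟩ := x
    have h := ih (t + step φ (e, s))
    simp only [wt] at h ⊢
    simp only [wtPoly, liftL, List.map_cons, List.sum_cons, eval_add, taylor_eval, Int.cast_add] at h ⊢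
    rw [← h]
    cases s <;> simp [taylor_eval, sub_eq_add_neg]

theorem wtPoly_add (F F' : E → ℚ[X]) (l : List (E × Bool)) :
    wtPoly φ (F + F') l = wtPoly φ F l + wtPoly φ F' l := by
  induction l with
  | nil => simp [wtPoly]
  | cons x l ih =>
    simp only [wtPoly, ih, map_add, Pi.add_apply]
    split_ifs <;> abel

theorem wtPoly_zero (l : List (E × Bool)) : wtPoly φ (0 : E → ℚ[X]) l = 0 := by
  induction l with
  | nil => simp [wtPoly]
  | cons x l ih =>
    simp only [wtPoly, ih, map_zero, Pi.zero_apply]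
    split_ifs <;> simp

theorem taylor_mem {d : ℕ} {p : ℚ[X]} (r : ℚ) (hp : p ∈ degreeLT ℚ d) :
    taylor r p ∈ degreeLT ℚ d := by
  rw [mem_degreeLT] at hp ⊢
  rwa [degree_taylor]

theorem taylor_sub_mem {d : ℕ} {p : ℚ[X]} (r : ℚ) (hp : p ∈ degreeLT ℚ (d + 1)) :
    taylor r p - p ∈ degreeLT ℚ d := by
  rw [mem_degreeLT, degree_lt_iff_coeff_zero] at hp ⊢
  intro k hk
  rw [coeff_sub, sub_eq_zero]
  have hn : p.natDegree ≤ d := natDegree_le_iff_coeff_eq_zero.mpr fun N hN => hp N hN
  rcases eq_or_lt_of_le (show p.natDegree ≤ k by omega) with h | h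
  · subst h; rw [coeff_taylor_natDegree]; rfl
  · rw [coeff_eq_zero_of_natDegree_lt h, coeff_eq_zero_of_natDegree_lt (by rwa [natDegree_taylor])]

theorem wtPoly_sub_mem {d : ℕ} (F : E → ℚ[X]) (hF : ∀ e, F e ∈ degreeLT ℚ (d + 1))
    (l : List (E × Bool)) :
    wtPoly φ F l ∈ degreeLT ℚ (d + 1) ∧ wtPoly φ F l - wt F l ∈ degreeLT ℚ d := by
  induction l with
  | nil => simp [wtPoly, wt]
  | cons x l ih =>
    obtain ⟨e, s⟩ := x
    have h2 := taylor_mem (step φ (e, s) : ℚ) ih.1
    have h3 := (degreeLT ℚ d).add_mem (taylor_sub_mem (step φ (e, s) : ℚ) ih.1) ih.2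
    cases s
    · refine ⟨(degreeLT ℚ (d + 1)).add_mem
        ((degreeLT ℚ (d + 1)).neg_mem (taylor_mem _ (hF e))) h2, ?_⟩
      have := (degreeLT ℚ d).sub_mem h3 (taylor_sub_mem (-(φ e : ℚ)) (hF e))
      convert this using 1
      simp [wtPoly, wt]
      abel
    · refine ⟨(degreeLT ℚ (d + 1)).add_mem (hF e) h2, ?_⟩
      convert h3 using 1
      simp [wtPoly, wt]

/-- Surjectivity of the exponent rows of the lifted words. -/
theorem exists_lift_weight (free : E → Prop) (cells : Finset (List (E × Bool)))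
    (hsurj : ∀ T : List (E × Bool) → ℚ, ∃ F : E → ℚ,
      (∀ e, ¬free e → F e = 0) ∧ ∀ c ∈ cells, wt F c = T c)
    (T : List ((E × ℤ) × Bool) → ℚ) (levels : Finset ℤ) :
    ∃ F : E × ℤ → ℚ, (∀ y, ¬free y.1 → F y = 0) ∧
      ∀ c ∈ cells, ∀ t ∈ levels, wt F (liftL φ t c) = T (liftL φ t c) := by
  classical
  have key : ∀ d, ∀ P : List (E × Bool) → ℚ[X], (∀ c, P c ∈ degreeLT ℚ d) →
      ∃ F : E → ℚ[X], (∀ e, ¬free e → F e = 0) ∧ (∀ e, F e ∈ degreeLT ℚ d) ∧
        ∀ c ∈ cells, wtPoly φ F c = P c := by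
    intro d
    induction d with
    | zero =>
      intro P hP
      refine ⟨0, fun e _ => rfl, fun e => Submodule.zero_mem _, fun c _ => ?_⟩
      have := hP c
      rw [mem_degreeLT, Polynomial.degree_lt_iff_coeff_zero] at this
      rw [wtPoly_zero]
      exact (Polynomial.ext fun n => this n (Nat.zero_le n)).symm
    | succ d ih =>
      intro P hP
      choose B hB0 hB using fun c => hsurj fun c' => if c' = c then 1 else 0
      let F₀ : E → ℚ[X] := fun e => ∑ c ∈ cells, B c e • P c
      have hF₀ : ∀ e, F₀ e ∈ degreeLT ℚ (d + 1) := fun e =>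
        Submodule.sum_mem _ fun c _ => Submodule.smul_mem _ _ (hP c)
      have hwt : ∀ l : List (E × Bool), wt F₀ l = ∑ c ∈ cells, wt (B c) l • P c := by
        intro l
        induction l with
        | nil => simp [wt]
        | cons x l ihl =>
          simp only [wt, List.map_cons, List.sum_cons] at ihl ⊢
          rw [ihl]
          simp only [add_smul, Finset.sum_add_distrib]
          congr 1
          split_ifs <;> simp [F₀, neg_smul]
      have hmem : ∀ c ∈ cells, P c - wtPoly φ F₀ c ∈ degreeLT ℚ d := by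
        intro c hc
        have : wt F₀ c = P c := by
          rw [hwt, Finset.sum_eq_single_of_mem c hc]
          · rw [hB c c hc, if_pos rfl, one_smul]
          · intro c' _ hne
            rw [hB c' c hc, if_neg (Ne.symm hne), zero_smul]
        have h := (degreeLT ℚ d).neg_mem (wtPoly_sub_mem φ F₀ hF₀ c).2
        rwa [neg_sub, this] at h
      obtain ⟨F, hF0, hFd, hF⟩ := ih (fun c => if c ∈ cells then P c - wtPoly φ F₀ c else 0)
        fun c => by
          split_ifs with hc
          · exact hmem c hc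
          · exact Submodule.zero_mem _
      refine ⟨F₀ + F, fun e he => ?_, fun e => ?_, fun c hc => ?_⟩
      · simp [F₀, hF0 e he, hB0 _ e he]
      · exact Submodule.add_mem _ (hF₀ e) (degreeLT_mono (Nat.le_succ d) (hFd e))
      · rw [wtPoly_add, hF c hc, if_pos hc]
        abel
  let P : List (E × Bool) → ℚ[X] := fun c =>
    Lagrange.interpolate levels (fun t : ℤ => (t : ℚ)) fun t => T (liftL φ t c)
  have hinj : Set.InjOn (fun t : ℤ => (t : ℚ)) levels := Int.cast_injective.injOn
  obtain ⟨F, hF0, -, hF⟩ := key levels.card P fun c =>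
    mem_degreeLT.mpr (Lagrange.degree_interpolate_lt _ hinj)
  refine ⟨fun y => (F y.1).eval (y.2 : ℚ), fun y hy => by simp [hF0 y.1 hy], fun c hc t ht => ?_⟩
  rw [← eval_wtPoly, hF c hc]
  exact Lagrange.eval_interpolate_at_node _ hinj ht

end Vale.Agent.P174.Tower
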