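import Vale.Agent.P174.Ext.Unitri
import Vale.Agent.P174.Tower.Main

/-!
P174, towers: residually unitriangular groups over the rationals are locally indicable, so the
extension theorem covers them.
-/

namespace Vale.Agent.P174.Tower

open Vale.Agent.P174.Ext

universe u

/-- A homomorphism to the rationals from a finitely generated group without a surjection onto the
integers is trivial. -/
theorem hom_rat_eq_one {L : Type u} [Group L] (hL : Group.FG L)
    (hf : ∀ f : L →* Multiplicative ℤ, f = 1) (χ : L →* Multiplicative ℚ) : χ = 1 := by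
  obtain ⟨S, hS⟩ := hL.out
  let N : ℕ := ∏ g ∈ S, (Multiplicative.toAdd (χ g)).den
  have hN : (N : ℚ) ≠ 0 := by
    exact_mod_cast Finset.prod_ne_zero_iff.mpr fun g _ => (Multiplicative.toAdd (χ g)).den_nz
  have hint : ∀ g : L, ∃ z : ℤ, (z : ℚ) = N * Multiplicative.toAdd (χ g) := by
    intro g
    have hg : g ∈ Subgroup.closure (S : Set L) := hS ▸ Subgroup.mem_top g
    induction hg using Subgroup.closure_induction with
    | mem x hx =>
      have hd : (Multiplicative.toAdd (χ x)).den ∣ N := Finset.dvd_prod_of_mem _ hx
      refine ⟨(N / (Multiplicative.toAdd (χ x)).den : ℕ) * (Multiplicative.toAdd (χ x)).num, ?_⟩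
      rw [Int.cast_mul, Int.cast_natCast, Nat.cast_div hd
        (by exact_mod_cast (Multiplicative.toAdd (χ x)).den_nz)]
      conv_rhs => rw [← Rat.num_div_den (Multiplicative.toAdd (χ x))]
      ring
    | one => exact ⟨0, by simp⟩
    | mul x y _ _ hx hy =>
      obtain ⟨a, ha⟩ := hx
      obtain ⟨b, hb⟩ := hy
      exact ⟨a + b, by simp [ha, hb, mul_add]⟩
    | inv x _ hx =>
      obtain ⟨a, ha⟩ := hx
      exact ⟨-a, by simp [ha]⟩
  choose z hz using hint
  let f : L →* Multiplicative ℤ := MonoidHom.mk' (fun g => Multiplicative.ofAdd (z g)) fun a b => by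
    rw [← ofAdd_add]
    congr 1
    exact_mod_cast show ((z (a * b) : ℤ) : ℚ) = (z a : ℚ) + (z b : ℚ) by simp [hz, mul_add]
  refine MonoidHom.ext fun g => ?_
  have h1 : z g = 0 := congrArg Multiplicative.toAdd (DFunLike.congr_fun (hf f) g)
  have h2 := hz g
  rw [h1, Int.cast_zero] at h2
  exact Multiplicative.toAdd.injective ((mul_eq_zero.mp h2.symm).resolve_left hN)

/-- Residually unitriangular groups are locally indicable. -/
theorem eq_bot_of_resUnipotent {Q : Type u} [Group Q] (hQ : ResUnipotent Q) (L : Subgroup Q)
    (hL : L.FG) (hf : ∀ f : L →* Multiplicative ℤ, f = 1) : L = ⊥ := by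
  rw [Subgroup.eq_bot_iff_forall]
  intro x hx
  by_contra hne
  obtain ⟨n, ρ, hρ, htri⟩ := hQ x hne
  let M : L → Matrix (Fin n) (Fin n) ℚ := fun h =>
    (ρ (h : Q) : Matrix (Fin n) (Fin n) ℚ) - 1
  have hband : ∀ k (h : L), Band k (M h) := by
    intro k
    induction k with
    | zero =>
      intro h i j hij
      simp only [M, Matrix.sub_apply, htri h i j (by change (j : ℕ) ≤ i; omega), Matrix.one_apply,
        sub_self]
    | succ k ih =>
      intro h i j hij
      rcases eq_or_ne k 0 with rfl | hk
      · simp only [M, Matrix.sub_apply, htri h i j (by change (j : ℕ) ≤ i; omega), Matrix.one_apply,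
          sub_self]
      rcases lt_or_eq_of_le (show (j : ℕ) ≤ i + k by omega) with hlt | heq
      · exact ih h i j hlt
      let χ : L →* Multiplicative ℚ := MonoidHom.mk' (fun a => Multiplicative.ofAdd (M a i j))
        fun a b => by
          rw [← ofAdd_add]
          congr 1
          have hm : M (a * b) = M a * M b + (M a + M b) := by
            simp only [M, Subgroup.coe_mul, map_mul, Units.val_mul]
            noncomm_ring
          rw [hm, Matrix.add_apply, Matrix.add_apply, (ih a).mul (ih b) i j (by omega), zero_add]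
      exact congrArg Multiplicative.toAdd
        (DFunLike.congr_fun (hom_rat_eq_one ((Group.fg_iff_subgroup_fg L).mpr hL) hf χ) h)
  apply hρ
  have := (hband n ⟨x, hx⟩).eq_zero le_rfl
  exact Units.ext (sub_eq_zero.mp this)

/-- The earlier extension theorem follows. -/
theorem equationsSolvable_extension' (G : Type u) [Group G] (N : Subgroup G) [N.Normal]
    (hN : EquationsSolvable N) (hQ : ResUnipotent (G ⧸ N)) : EquationsSolvable G :=
  equationsSolvable_li_extension G N hN fun L hL hf => eq_bot_of_resUnipotent hQ L hL hf

end Vale.Agent.P174.Tower
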